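import Mathlib

/-!
A local lemma for permutations: events prescribe one or two values of a permutation, and two events are
dependent when they share a position or a value.
-/

namespace Vale.Agent.P060

open Finset

variable {ι : Type*} [Fintype ι] [DecidableEq ι]

/-- An event: two prescribed values, equal when only one is meant. -/
abbrev PEv (ι : Type*) := (ι × ι) × (ι × ι)

/-- The event holds. -/
def PSat (σ : Equiv.Perm ι) (e : PEv ι) : Prop := σ e.1.1 = e.1.2 ∧ σ e.2.1 = e.2.2

instance (σ : Equiv.Perm ι) (e : PEv ι) : Decidable (PSat σ e) := inferInstanceAs (Decidable (_ ∧ _))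

/-- Dependence. -/
def Touch (p q : ι × ι) : Prop := p.1 = q.1 ∨ p.2 = q.2

instance (p q : ι × ι) : Decidable (Touch p q) := inferInstanceAs (Decidable (_ ∨ _))

/-- Dependence of events. -/
def Confl (e f : PEv ι) : Prop :=
  Touch e.1 f.1 ∨ Touch e.1 f.2 ∨ Touch e.2 f.1 ∨ Touch e.2 f.2

instance (e f : PEv ι) : Decidable (Confl e f) := inferInstanceAs (Decidable (_ ∨ _))

/-- The event prescribes a partial permutation. -/
def PValid (e : PEv ι) : Prop := e.1 = e.2 ∨ (e.1.1 ≠ e.2.1 ∧ e.1.2 ≠ e.2.2)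

/-- Number of possible images of the prescribed positions. -/
def pwt (e : PEv ι) : ℕ :=
  if e.1 = e.2 then Fintype.card ι else Fintype.card ι * (Fintype.card ι - 1)

/-- Permutations avoiding the events in `S`. -/
def avoid (S : Finset (PEv ι)) : Finset (Equiv.Perm ι) :=
  univ.filter fun σ => ∀ e ∈ S, ¬ PSat σ e

theorem card_sat_le {S : Finset (PEv ι)} {e : PEv ι} (hS : ∀ f ∈ S, ¬ Confl e f)
    (π : Equiv.Perm ι)
    (hπ : ∀ z, z ≠ e.1.2 → z ≠ e.2.2 → z ≠ π e.1.2 → z ≠ π e.2.2 → π z = z) :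
    ((avoid S).filter (PSat · e)).card ≤
      ((avoid S).filter (PSat · ((e.1.1, π e.1.2), (e.2.1, π e.2.2)))).card := by
  refine card_le_card_of_injOn (fun σ => π * σ) ?_ fun σ _ τ _ h => mul_left_cancel h
  intro σ hσ
  rw [mem_coe, mem_filter, avoid, mem_filter] at hσ
  obtain ⟨⟨-, hσS⟩, h1, h2⟩ := hσ
  rw [mem_coe, mem_filter, avoid, mem_filter]
  refine ⟨⟨mem_univ _, fun f hf hsat => hσS f hf ?_⟩, ?_, ?_⟩
  rotate_left
  · rw [Equiv.Perm.mul_apply, h1]
  · rw [Equiv.Perm.mul_apply, h2]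
  have key : ∀ q : ι × ι, ¬ Touch e.1 q → ¬ Touch e.2 q → π (σ q.1) = q.2 → σ q.1 = q.2 := by
    intro q t1 t2 hq
    simp only [Touch, not_or] at t1 t2
    have z1 : σ q.1 ≠ e.1.2 := fun h => t1.1 (σ.injective (h1.trans h.symm))
    have z2 : σ q.1 ≠ e.2.2 := fun h => t2.1 (σ.injective (h2.trans h.symm))
    by_cases hz : σ q.1 = π e.1.2 ∨ σ q.1 = π e.2.2
    · exfalso
      by_cases hw : q.2 = π e.1.2 ∨ q.2 = π e.2.2
      · rcases hw with hw | hw
        · exact z1 (π.injective (hq.trans hw))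
        · exact z2 (π.injective (hq.trans hw))
      · rw [not_or] at hw
        have h3 : π q.2 = q.2 := hπ _ (Ne.symm t1.2) (Ne.symm t2.2) hw.1 hw.2
        have h4 : σ q.1 = q.2 := π.injective (hq.trans h3.symm)
        rcases hz with hz | hz
        · exact hw.1 (h4 ▸ hz)
        · exact hw.2 (h4 ▸ hz)
    · rw [not_or] at hz
      rwa [hπ _ z1 z2 hz.1 hz.2] at hq
  have hc := hS f hf
  simp only [Confl, not_or] at hc
  exact ⟨key f.1 hc.1 hc.2.2.1 hsat.1, key f.2 hc.2.1 hc.2.2.2 hsat.2⟩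

theorem pwt_mul_card_le {S : Finset (PEv ι)} {e : PEv ι} (he : PValid e)
    (hS : ∀ f ∈ S, ¬ Confl e f) :
    pwt e * ((avoid S).filter (PSat · e)).card ≤ (avoid S).card := by
  obtain ⟨⟨a, b⟩, ⟨c, d⟩⟩ := e
  by_cases h : (a, b) = (c, d)
  · cases h
    rw [pwt, if_pos rfl, card_eq_sum_card_fiberwise (s := avoid S) (t := univ)
      (f := fun σ => σ a) fun σ _ => mem_univ _, ← card_univ, ← smul_eq_mul, ← sum_const]
    refine sum_le_sum fun b' _ => le_trans (card_sat_le hS (Equiv.swap b b') ?_)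
      (card_le_card fun σ hσ => ?_)
    · intro z hz _ hz' _
      rw [Equiv.swap_apply_left] at hz'
      exact Equiv.swap_apply_of_ne_of_ne hz hz'
    · rw [mem_filter] at hσ ⊢
      exact ⟨hσ.1, by simpa [Equiv.swap_apply_left] using hσ.2.1⟩
  · obtain ⟨hac, hbd⟩ := he.resolve_left h
    simp only at hac hbd
    rw [pwt, if_neg (show ¬ ((a, b), (c, d)).1 = ((a, b), (c, d)).2 from h),
      card_eq_sum_card_fiberwise (s := avoid S) (t := (univ : Finset ι).offDiag)
        (f := fun σ => (σ a, σ c)) fun σ _ => mem_offDiag.2 ⟨mem_univ _, mem_univ _,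
          fun hh => hac (σ.injective hh)⟩]
    have hoff : Fintype.card ι * (Fintype.card ι - 1) = (univ : Finset ι).offDiag.card := by
      rw [offDiag_card, card_univ, Nat.mul_sub, mul_one]
    rw [hoff, ← smul_eq_mul, ← sum_const]
    refine sum_le_sum fun r hr => ?_
    obtain ⟨b', d'⟩ := r
    obtain ⟨-, -, hbd'⟩ := mem_offDiag.1 hr
    simp only at hbd'
    set π := Equiv.swap (Equiv.swap b b' d) d' * Equiv.swap b b' with hπ
    have hb : π b = b' := by
      rw [hπ, Equiv.Perm.mul_apply, Equiv.swap_apply_left]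
      refine Equiv.swap_apply_of_ne_of_ne (fun hh => ?_) hbd'
      have h0 := congrArg (Equiv.swap b b') hh
      rw [Equiv.swap_apply_self, Equiv.swap_apply_right] at h0
      exact hbd h0
    have hd : π d = d' := by
      rw [hπ, Equiv.Perm.mul_apply, Equiv.swap_apply_left]
    refine le_trans (card_sat_le hS π ?_) (card_le_card fun σ hσ => ?_)
    · intro z hz1 hz2 hz3 hz4
      simp only [hb, hd] at hz3 hz4
      rw [hπ, Equiv.Perm.mul_apply, Equiv.swap_apply_of_ne_of_ne hz1 hz3]
      refine Equiv.swap_apply_of_ne_of_ne (fun hh => ?_) hz4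
      have h0 := congrArg (Equiv.swap b b') hh
      rw [Equiv.swap_apply_self, Equiv.swap_apply_of_ne_of_ne hz1 hz3] at h0
      exact hz2 h0
    · rw [mem_filter] at hσ ⊢
      refine ⟨hσ.1, ?_⟩
      simpa [PSat, hb, hd] using hσ.2

/-- The local lemma: few dependent events, weighted by probability, leave a good permutation. -/
theorem exists_perm_avoid (E : Finset (PEv ι)) (hval : ∀ e ∈ E, PValid e)
    (hE : ∀ e ∈ E, ∑ f ∈ E.filter (Confl e), ((pwt f : ℝ))⁻¹ ≤ 1 / 4) :
    ∃ σ : Equiv.Perm ι, ∀ e ∈ E, ¬ PSat σ e := by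
  have hpos : ∀ e ∈ E, 0 < (pwt e : ℝ) := by
    intro e he
    have : Nonempty ι := ⟨e.1.1⟩
    have : 0 < Fintype.card ι := Fintype.card_pos
    rcases hval e he with h | h
    · simp only [pwt, h, if_true]
      exact_mod_cast this
    · have h' : e.1 ≠ e.2 := fun hh => h.1 (congrArg Prod.fst hh)
      have h2 : 1 < Fintype.card ι := Fintype.one_lt_card_iff.2 ⟨_, _, h.1⟩
      simp only [pwt, if_neg h']
      exact_mod_cast Nat.mul_pos this (by omega)
  have hdirect : ∀ S : Finset (PEv ι), ∀ e ∈ E, (∀ f ∈ S, ¬ Confl e f) →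
      (((avoid S).filter (PSat · e)).card : ℝ) ≤ (pwt e : ℝ)⁻¹ * (avoid S).card := by
    intro S e he hS
    rw [inv_mul_eq_div, le_div_iff₀' (hpos e he)]
    exact_mod_cast pwt_mul_card_le (hval e he) hS
  have hsub : ∀ S S' : Finset (PEv ι), S ⊆ S' → avoid S' ⊆ avoid S := by
    intro S S' h σ hσ
    simp only [avoid, mem_filter, mem_univ, true_and] at hσ ⊢
    exact fun e he => hσ e (h he)
  have key : ∀ S ⊆ E, ∀ e ∈ E,
      (((avoid S).filter (PSat · e)).card : ℝ) ≤ 2 * (pwt e : ℝ)⁻¹ * (avoid S).card := by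
    intro S
    induction S using Finset.strongInduction with
    | _ S ih =>
    intro hSE e he
    by_cases h0 : ∀ f ∈ S, ¬ Confl e f
    · refine le_trans (hdirect S e he h0) ?_
      have := hpos e he
      gcongr
      linarith [inv_nonneg.2 this.le]
    push Not at h0
    set S₂ := S.filter fun f => ¬ Confl e f with hS₂
    have hlt : S₂ ⊂ S := filter_ssubset.2 (by obtain ⟨f, h1, h2⟩ := h0; exact ⟨f, h1, by simpa using h2⟩)
    set F := E.filter (Confl e)
    have hcover : avoid S₂ ⊆ avoid S ∪ F.biUnion fun f => (avoid S₂).filter (PSat · f) := by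
      intro σ hσ
      by_cases hh : σ ∈ avoid S
      · exact mem_union_left _ hh
      · simp only [avoid, mem_filter, mem_univ, true_and, not_forall, not_not] at hh
        obtain ⟨f, hfS, hf⟩ := hh
        refine mem_union_right _ (mem_biUnion.2 ⟨f, mem_filter.2 ⟨hSE hfS, ?_⟩,
          mem_filter.2 ⟨hσ, hf⟩⟩)
        by_contra hc
        exact (mem_filter.1 hσ).2 f (mem_filter.2 ⟨hfS, hc⟩) hf
    have h1 : ((avoid S₂).card : ℝ) ≤ (avoid S).card +
        ∑ f ∈ F, (((avoid S₂).filter (PSat · f)).card : ℝ) := by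
      exact_mod_cast le_trans (card_le_card hcover)
        (le_trans (card_union_le _ _) (Nat.add_le_add_left card_biUnion_le _))
    have h2 : ∑ f ∈ F, (((avoid S₂).filter (PSat · f)).card : ℝ) ≤
        2 * (∑ f ∈ F, (pwt f : ℝ)⁻¹) * (avoid S₂).card := by
      rw [mul_sum, sum_mul]
      exact sum_le_sum fun f hf =>
        ih S₂ hlt ((filter_subset _ _).trans hSE) f (mem_filter.1 hf).1
    have h3 := hdirect S₂ e he fun f hf => (mem_filter.1 hf).2
    have h4 : (((avoid S).filter (PSat · e)).card : ℝ) ≤ ((avoid S₂).filter (PSat · e)).card :=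
      Nat.cast_le.2 (card_le_card (filter_subset_filter _ (hsub _ _ (filter_subset _ _))))
    have h5 : (2 : ℝ) * (∑ f ∈ F, (pwt f : ℝ)⁻¹) * (avoid S₂).card ≤ 1 / 2 * (avoid S₂).card := by
      gcongr
      linarith [hE e he]
    have h6 : ((avoid S₂).card : ℝ) ≤ 2 * (avoid S).card := by linarith
    have h7 := mul_le_mul_of_nonneg_left h6 (inv_nonneg.2 (hpos e he).le)
    linarith
  have main : ∀ S ⊆ E, 0 < (avoid S).card := by
    intro S
    induction S using Finset.induction_on with
    | empty =>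
      intro _
      exact card_pos.2 ⟨1, by simp [avoid]⟩
    | insert e S heS ih =>
      intro hSE
      rw [insert_subset_iff] at hSE
      have h0 : (0 : ℝ) < (avoid S).card := by exact_mod_cast ih hSE.2
      have hself : (pwt e : ℝ)⁻¹ ≤ 1 / 4 :=
        le_trans (single_le_sum (f := fun f : PEv ι => (pwt f : ℝ)⁻¹) (fun f _ => by positivity)
          (mem_filter.2 ⟨hSE.1, Or.inl (Or.inl rfl)⟩)) (hE e hSE.1)
      have h1 := key S hSE.2 e hSE.1
      have h2 : (avoid (insert e S)) = (avoid S).filter fun σ => ¬ PSat σ e := by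
        ext σ
        simp [avoid, and_comm]
      have h3 := card_filter_add_card_filter_not (s := avoid S) (fun σ => PSat σ e)
      rw [h2]
      by_contra hz
      rw [Nat.eq_zero_of_not_pos hz, add_zero] at h3
      rw [h3] at h1
      nlinarith
  obtain ⟨σ, hσ⟩ := card_pos.1 (main E subset_rfl)
  exact ⟨σ, (mem_filter.1 hσ).2⟩

end Vale.Agent.P060
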