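import Vale.Agent.P060.Pairing

/-!
Complete minors in graphs with independence number at most two whose complement has small maximum degree.
-/

namespace Vale.Agent.P060

open Finset SimpleGraph

/-- `G` has a complete minor on `t` vertices. -/
def HasCompleteMinor {V : Type} (G : SimpleGraph V) (t : ℕ) : Prop :=
  ∃ B : Fin t → Set V, (∀ i, (G.induce (B i)).Connected) ∧
    ∀ i j, i ≠ j → Disjoint (B i) (B j) ∧ ∃ x ∈ B i, ∃ y ∈ B j, G.Adj x y

theorem HasCompleteMinor.mono {V : Type} {G : SimpleGraph V} {s t : ℕ} (h : s ≤ t)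
    (hG : HasCompleteMinor G t) : HasCompleteMinor G s := by
  obtain ⟨B, h1, h2⟩ := hG
  exact ⟨fun i => B (Fin.castLE h i), fun i => h1 _,
    fun i j hij => h2 _ _ fun he => hij (Fin.castLE_injective h he)⟩

set_option linter.unusedSectionVars false

variable {V : Type} [Fintype V] [DecidableEq V] {G : SimpleGraph V} [DecidableRel G.Adj]

theorem connected_induce_single (u : V) : (G.induce ({u} : Set V)).Connected := by
  rw [SimpleGraph.connected_iff]
  refine ⟨fun x y => ?_, ⟨⟨u, rfl⟩⟩⟩
  obtain rfl : x = y := Subtype.ext (x.2.trans y.2.symm)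
  exact Reachable.rfl

/-- A minimum colouring of a graph with independence number two, read as pairs and singles. -/
structure Layout (G : SimpleGraph V) (t : ℕ) where
  c : V → Fin t
  single : Finset (Fin t)
  a : {i : Fin t // i ∉ single} → V
  b : {i : Fin t // i ∉ single} → V
  u : {i : Fin t // i ∈ single} → V
  ca : ∀ i, c (a i) = i.1
  cb : ∀ i, c (b i) = i.1
  cu : ∀ i, c (u i) = i.1
  aneb : ∀ i, a i ≠ b i
  card_eq : Fintype.card V + single.card = 2 * t
  clique : ∀ i j, i ≠ j → G.Adj (u i) (u j)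
  far : ∀ i j, G.Adj (b i) (u j)

theorem exists_layout {t : ℕ} (hα : ∀ x y z : V, x ≠ y → y ≠ z → x ≠ z →
      G.Adj x y ∨ G.Adj y z ∨ G.Adj x z) (ht : G.chromaticNumber = t) :
    Nonempty (Layout G t) := by
  classical
  obtain ⟨C⟩ : G.Colorable t := chromaticNumber_le_iff_colorable.1 ht.le
  have avoid : ∀ (f : V → Fin t) (k : Fin t), (∀ v w, G.Adj v w → f v ≠ f w) →
      (∀ v, f v ≠ k) → False := by
    intro f k hf hk
    let C' : G.Coloring {i : Fin t // i ≠ k} :=
      Coloring.mk (fun v => ⟨f v, hk v⟩) fun h he => hf _ _ h (congrArg Subtype.val he)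
    have h1 := chromaticNumber_le_iff_colorable.2 C'.colorable
    rw [ht, Fintype.card_subtype_compl, Fintype.card_fin, Fintype.card_subtype_eq,
      Nat.cast_le] at h1
    have := k.pos
    omega
  have hC : ∀ v w, G.Adj v w → C v ≠ C w := fun v w h => C.valid h
  let F : Fin t → Finset V := fun i => univ.filter (fun v => C v = i)
  have hF : ∀ i v, v ∈ F i ↔ C v = i := fun i v => by simp [F]
  have hpos : ∀ i, (F i).Nonempty := by
    intro i
    by_contra h
    exact avoid C i hC fun v hv => h ⟨v, (hF i v).2 hv⟩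
  have hle : ∀ i, (F i).card ≤ 2 := by
    intro i
    by_contra h
    obtain ⟨x, hx, y, hy, z, hz, hxy, hxz, hyz⟩ := two_lt_card.1 (not_le.1 h)
    rw [hF] at hx hy hz
    rcases hα x y z hxy hyz hxz with h | h | h
    · exact hC _ _ h (hx.trans hy.symm)
    · exact hC _ _ h (hy.trans hz.symm)
    · exact hC _ _ h (hx.trans hz.symm)
  let S : Finset (Fin t) := univ.filter (fun i => (F i).card = 1)
  have hsum : Fintype.card V + S.card = 2 * t := by
    have h1 : Fintype.card V = ∑ i, (F i).card :=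
      card_eq_sum_card_fiberwise (fun v _ => mem_univ (C v))
    have h2 : ∑ i, ((F i).card + if (F i).card = 1 then 1 else 0) = ∑ _i : Fin t, 2 := by
      refine sum_congr rfl fun i _ => ?_
      have := hle i
      have := card_pos.2 (hpos i)
      split_ifs <;> omega
    rw [sum_add_distrib, ← h1, ← card_filter, sum_const, card_univ, Fintype.card_fin,
      smul_eq_mul] at h2
    rw [mul_comm]
    exact h2
  have hu : ∀ i : {i : Fin t // i ∈ S}, ∃ w, ∀ v, C v = i.1 ↔ v = w := by
    intro i
    obtain ⟨w, hw⟩ := card_eq_one.1 (mem_filter.1 i.2).2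
    exact ⟨w, fun v => by rw [← hF, hw, mem_singleton]⟩
  choose u hu using hu
  have hclique : ∀ i j, i ≠ j → G.Adj (u i) (u j) := by
    intro i j hij
    by_contra hn
    refine avoid (fun v => if v = u i then j.1 else C v) i.1 ?_ ?_
    · intro v w hvw he
      split_ifs at he with hv hw hw
      · exact hvw.ne (hv.trans hw.symm)
      · exact hn (by rw [← hv, ← (hu j w).1 he.symm]; exact hvw)
      · exact hn (by rw [← hw, ← (hu j v).1 he]; exact hvw.symm)
      · exact hC _ _ hvw he
    · intro v he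
      split_ifs at he with hv
      · exact hij (Subtype.ext he.symm)
      · exact hv ((hu i v).1 he)
  have hd : ∀ i : {i : Fin t // i ∉ S}, ∃ x y, x ≠ y ∧ ∀ v, C v = i.1 ↔ v = x ∨ v = y := by
    intro i
    have h1 : (F i.1).card = 2 := by
      have := hle i.1
      have := card_pos.2 (hpos i.1)
      have h := i.2
      simp only [S, mem_filter, mem_univ, true_and] at h
      omega
    obtain ⟨x, y, hxy, hw⟩ := card_eq_two.1 h1
    exact ⟨x, y, hxy, fun v => by rw [← hF, hw, mem_insert, mem_singleton]⟩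
  choose x y hxy hd using hd
  have hnot : ∀ i j k, ¬ G.Adj (x i) (u j) → ¬ G.Adj (y i) (u k) → False := by
    intro i j k h1 h2
    have hnxy : ¬ G.Adj (x i) (y i) := fun h =>
      hC _ _ h (((hd i _).2 (Or.inl rfl)).trans ((hd i _).2 (Or.inr rfl)).symm)
    have hiS : ∀ j : {i : Fin t // i ∈ S}, j.1 ≠ i.1 := fun j h => i.2 (h ▸ j.2)
    have huj : x i ≠ u j := fun h => hiS j
      (((hu j _).2 h).symm.trans ((hd i _).2 (Or.inl rfl)))
    have huk : y i ≠ u k := fun h => hiS k
      (((hu k _).2 h).symm.trans ((hd i _).2 (Or.inr rfl)))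
    by_cases hjk : j = k
    · subst hjk
      rcases hα (x i) (y i) (u j) (hxy i) huk huj with h | h | h
      · exact hnxy h
      · exact h2 h
      · exact h1 h
    let f : V → Fin t := fun v => if v = u j then i.1 else if v = y i then k.1 else C v
    have f1 : ∀ v, f v = i.1 → v = x i ∨ v = u j := by
      intro v he
      simp only [f] at he
      split_ifs at he with hv hv'
      · exact Or.inr hv
      · exact absurd he (hiS k)
      · exact Or.inl (((hd i v).1 he).resolve_right hv')
    have f2 : ∀ v, f v = k.1 → v = y i ∨ v = u k := by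
      intro v he
      simp only [f] at he
      split_ifs at he with hv hv'
      · exact absurd he.symm (hiS k)
      · exact Or.inl hv'
      · exact Or.inr ((hu k v).1 he)
    have f3 : ∀ v, f v ≠ i.1 → f v ≠ k.1 → C v = f v := by
      intro v h h'
      simp only [f] at h h' ⊢
      split_ifs at h h' ⊢ with hv hv'
      · exact absurd rfl h
      · exact absurd rfl h'
      · rfl
    refine avoid f j.1 ?_ ?_
    · intro v w hvw he
      by_cases hi : f v = i.1
      · rcases f1 v hi with rfl | rfl <;> rcases f1 w (he ▸ hi) with rfl | rfl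
        exacts [hvw.ne rfl, h1 hvw, h1 hvw.symm, hvw.ne rfl]
      by_cases hk : f v = k.1
      · rcases f2 v hk with rfl | rfl <;> rcases f2 w (he ▸ hk) with rfl | rfl
        exacts [hvw.ne rfl, h2 hvw, h2 hvw.symm, hvw.ne rfl]
      exact hC _ _ hvw (by rw [f3 v hi hk, f3 w (he ▸ hi) (he ▸ hk), he])
    · intro v he
      by_cases hv : v = u j
      · simp only [f, if_pos hv] at he
        exact hiS j he.symm
      · simp only [f, if_neg hv] at he
        split_ifs at he with hv'
        · exact hjk (Subtype.ext he.symm)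
        · exact hv ((hu j v).1 he)
  have hab : ∀ i : {i : Fin t // i ∉ S}, ∃ p : V × V, C p.1 = i.1 ∧ C p.2 = i.1 ∧ p.1 ≠ p.2 ∧ ∀ j, G.Adj p.2 (u j) := by
    intro i
    by_cases h : ∀ j, G.Adj (y i) (u j)
    · exact ⟨(x i, y i), (hd i _).2 (Or.inl rfl), (hd i _).2 (Or.inr rfl), hxy i, h⟩
    · push Not at h
      obtain ⟨k, hk⟩ := h
      refine ⟨(y i, x i), (hd i _).2 (Or.inr rfl), (hd i _).2 (Or.inl rfl), (hxy i).symm, fun j => ?_⟩
      by_contra hj
      exact hnot i j k hj hk
  choose p hp1 hp2 hp3 hp4 using hab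
  exact ⟨{
    c := C, single := S, a := fun i => (p i).1, b := fun i => (p i).2, u := u
    ca := hp1, cb := hp2, cu := fun i => (hu i _).2 rfl, aneb := hp3
    card_eq := hsum, clique := hclique, far := hp4 }⟩

/-- The singles of a layout form a clique, so give a complete minor. -/
theorem Layout.clique_minor {t : ℕ} (L : Layout G t) : HasCompleteMinor G L.single.card := by
  classical
  let e : Fin L.single.card ≃ {i // i ∈ L.single} := L.single.equivFin.symm
  refine ⟨fun i => {L.u (e i)}, fun i => connected_induce_single _, fun i j hij => ?_⟩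
  have h : G.Adj (L.u (e i)) (L.u (e j)) := L.clique _ _ fun h => hij (e.injective h)
  exact ⟨Set.disjoint_singleton.2 h.ne, _, rfl, _, rfl, h⟩

theorem Layout.minor {t : ℕ} (L : Layout G t) {D : ℕ}
    (hD : ∀ v, {w | w ≠ v ∧ ¬ G.Adj v w}.ncard ≤ D)
    (hbig : 100 * (D + 1) ^ 3 ≤ (Fintype.card V - t) ^ 2 ∨
      10000 * (D + 1) ^ 4 ≤ (Fintype.card V - t) ^ 3) : HasCompleteMinor G t := by
  classical
  let N : V → Finset V := fun v => univ.filter (fun w => w ≠ v ∧ ¬ G.Adj v w)
  have hN : ∀ v w, w ∈ N v ↔ w ≠ v ∧ ¬ G.Adj v w := fun v w => by simp [N]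
  have hND : ∀ v, (N v).card ≤ D := by
    intro v
    refine le_trans (le_of_eq ?_) (hD v)
    rw [← Set.ncard_coe_finset]
    congr 1
    ext w
    simp [N]
  have hι : Fintype.card {i : Fin t // i ∉ L.single} = Fintype.card V - t := by
    rw [Fintype.card_subtype_compl, Fintype.card_coe, Fintype.card_fin]
    have := L.card_eq
    have := card_le_univ L.single
    rw [Fintype.card_fin] at this
    omega
  have ha : Function.Injective L.a := fun i j h => Subtype.ext (by rw [← L.ca i, h, L.ca j])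
  have hb : Function.Injective L.b := fun i j h => Subtype.ext (by rw [← L.cb i, h, L.cb j])
  have hs : D ≤ Nat.sqrt D * (Nat.sqrt D + 2) := by
    have := Nat.lt_succ_sqrt D
    nlinarith
  have hsym : ∀ v w, v ∈ N w → w ∈ N v := by
    intro v w h
    rw [hN] at h ⊢
    exact ⟨h.1.symm, fun h' => h.2 h'.symm⟩
  obtain ⟨σ, hσ, hfar, hcross⟩ :
      ∃ σ : {i : Fin t // i ∉ L.single} → {i : Fin t // i ∉ L.single}, Function.Injective σ ∧
        (∀ i, L.b (σ i) ∉ N (L.a i)) ∧ ∀ i j,
          ¬ (L.a j ∈ N (L.a i) ∩ N (L.b (σ i)) ∧ L.b (σ j) ∈ N (L.a i) ∩ N (L.b (σ i))) := by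
    have hirr : ∀ v, v ∉ N v := fun v h => ((hN v v).1 h).1 rfl
    rcases hbig with hbig | hbig
    swap
    · exact exists_pairing_lll hsym hirr hND ha hb (by rw [hι]; exact hbig)
    have hcard : 7 * D + 6 * (D * Nat.sqrt D) < Fintype.card {i : Fin t // i ∉ L.single} := by
      rw [hι]
      set ν := Fintype.card V - t
      set s := Nat.sqrt D
      have h1 : s * s ≤ D := Nat.sqrt_le D
      have h3 : (s + 1) * (s + 1) ≤ 2 * (D + 1) := by
        rcases Nat.eq_zero_or_pos s with h | h <;> nlinarith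
      have h4 : (7 * ((D + 1) * (s + 1))) ^ 2 < ν ^ 2 := by
        have : (D + 1) * (D + 1) * ((s + 1) * (s + 1)) ≤ (D + 1) * (D + 1) * (2 * (D + 1)) :=
          Nat.mul_le_mul_left _ h3
        nlinarith
      have h5 := (Nat.pow_lt_pow_iff_left (two_ne_zero)).1 h4
      nlinarith
    exact exists_pairing hsym hirr hND hs ha hb hcard
  have hne : ∀ i j, L.a i ≠ L.b j := by
    intro i j h
    have hij : i = j := Subtype.ext (by rw [← L.ca i, h, L.cb j])
    subst hij
    exact L.aneb i h
  have hadj : ∀ i, G.Adj (L.a i) (L.b (σ i)) := by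
    intro i
    by_contra h
    exact hfar i ((hN _ _).2 ⟨(hne i (σ i)).symm, h⟩)
  refine ⟨fun i => if h : i ∈ L.single then {L.u ⟨i, h⟩}
    else {L.a ⟨i, h⟩, L.b (σ ⟨i, h⟩)}, fun i => ?_, ?_⟩
  · beta_reduce
    by_cases h : i ∈ L.single
    · exact (dif_pos h (t := fun h => ({L.u ⟨i, h⟩} : Set V))
        (e := fun h => {L.a ⟨i, h⟩, L.b (σ ⟨i, h⟩)})).symm ▸ connected_induce_single (G := G) _
    · exact (dif_neg h (t := fun h => ({L.u ⟨i, h⟩} : Set V))
        (e := fun h => {L.a ⟨i, h⟩, L.b (σ ⟨i, h⟩)})).symm ▸ induce_pair_connected_of_adj (hadj _)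
  intro i j hij
  have hau : ∀ x z, L.a x ≠ L.u z := fun x z h =>
    x.2 (by rw [← L.ca x, h, L.cu z]; exact z.2)
  have hbu : ∀ x z, L.b x ≠ L.u z := fun x z h =>
    x.2 (by rw [← L.cb x, h, L.cu z]; exact z.2)
  by_cases hi : i ∈ L.single <;> by_cases hj : j ∈ L.single <;>
    simp only [hi, hj, dite_true, dite_false]
  · have h : G.Adj (L.u ⟨i, hi⟩) (L.u ⟨j, hj⟩) :=
      L.clique _ _ fun h => hij (congrArg Subtype.val h)
    exact ⟨Set.disjoint_singleton.2 h.ne, _, rfl, _, rfl, h⟩
  · refine ⟨?_, _, rfl, _, Or.inr rfl, (L.far _ _).symm⟩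
    rw [Set.disjoint_singleton_left]
    rintro (h | h)
    · exact hau _ _ h.symm
    · exact hbu _ _ h.symm
  · refine ⟨?_, _, Or.inr rfl, _, rfl, L.far _ _⟩
    rw [Set.disjoint_singleton_right]
    rintro (h | h)
    · exact hau _ _ h.symm
    · exact hbu _ _ h.symm
  · refine ⟨?_, ?_⟩
    · rw [Set.disjoint_left]
      rintro v (rfl | rfl) (h | h)
      · exact hij (congrArg Subtype.val (ha h))
      · exact hne _ _ h
      · exact hne _ _ h.symm
      · exact hij (congrArg Subtype.val (hσ (hb h)))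
    · by_contra hno
      push Not at hno
      refine hcross ⟨i, hi⟩ ⟨j, hj⟩ ⟨mem_inter.2 ⟨?_, ?_⟩, mem_inter.2 ⟨?_, ?_⟩⟩ <;> rw [hN]
      · exact ⟨fun h => hij (congrArg Subtype.val (ha h)).symm, hno _ (Or.inl rfl) _ (Or.inl rfl)⟩
      · exact ⟨hne _ _, hno _ (Or.inr rfl) _ (Or.inl rfl)⟩
      · exact ⟨(hne _ _).symm, hno _ (Or.inl rfl) _ (Or.inr rfl)⟩
      · exact ⟨fun h => hij (congrArg Subtype.val (hσ (hb h))).symm,
          hno _ (Or.inr rfl) _ (Or.inr rfl)⟩

end Vale.Agent.P060
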