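import Vale.Agent.P060.Switch
import Vale.Agent.P060.Local

/-!
A pairing from the local lemma: no pair is adjacent and no pair lies inside the common neighbourhood of
another, as soon as `10000 (D + 1)^4 ≤ n^3`.
-/

namespace Vale.Agent.P060

open Finset

variable {V ι : Type*} [Fintype V] [DecidableEq V] [Fintype ι] [DecidableEq ι]
variable (N : V → Finset V) (a b : ι → V) (k : ℕ)

/-- A pair that is adjacent or has more than `k` common neighbours. -/
def forb : Finset (ι × ι) :=
  univ.filter fun p => b p.2 ∈ N (a p.1) ∨ k < (cnbr N a b p).card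

/-- Two allowed pairs, the second inside the common neighbourhood of the first. -/
def crossEv : Finset (PEv ι) :=
  univ.filter fun e => e.1 ∉ forb N a b k ∧ e.2 ∉ forb N a b k ∧ e.1.1 ≠ e.2.1 ∧ e.1.2 ≠ e.2.2 ∧
    a e.2.1 ∈ cnbr N a b e.1 ∧ b e.2.2 ∈ cnbr N a b e.1

set_option linter.unusedSectionVars false

variable {N} {a b} {k}

theorem crossEv_swap (hsym : ∀ x y, x ∈ N y → y ∈ N x) {e : PEv ι} (he : e ∈ crossEv N a b k) :
    e.swap ∈ crossEv N a b k := by
  simp only [crossEv, mem_filter, mem_univ, true_and, cnbr, mem_inter, Prod.fst_swap,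
    Prod.snd_swap] at he ⊢
  obtain ⟨h1, h2, h3, h4, ⟨h5, h6⟩, h7, h8⟩ := he
  exact ⟨h2, h1, h3.symm, h4.symm, ⟨hsym _ _ h5, hsym _ _ h7⟩, hsym _ _ h6, hsym _ _ h8⟩

theorem forb_count (hsym : ∀ x y, x ∈ N y → y ∈ N x) {D : ℕ} (hD : ∀ x, (N x).card ≤ D)
    (hb : Function.Injective b) (i : ι) :
    ((forb N a b k).filter fun p => p.1 = i).card * (k + 1) ≤ D * (k + 1) + D * D := by
  refine le_trans (Nat.mul_le_mul_right _ (card_le_card_of_injOn (fun p => b p.2)
    (t := N (a i) ∪ univ.filter fun v => k < (N (a i) ∩ N v).card) ?_ ?_)) ?_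
  · intro p hp
    simp only [forb, mem_coe, mem_filter, mem_univ, true_and, mem_union] at hp ⊢
    obtain ⟨hp, rfl⟩ := hp
    exact hp
  · intro p hp q hq h
    exact Prod.ext ((mem_filter.1 hp).2.trans (mem_filter.1 hq).2.symm) (hb h)
  · refine le_trans (Nat.mul_le_mul_right _ (card_union_le _ _)) ?_
    rw [add_mul]
    exact Nat.add_le_add (Nat.mul_le_mul_right _ (hD _)) (badv_high_card hsym hD k _)

theorem cross_count (hsym : ∀ x y, x ∈ N y → y ∈ N x) {D : ℕ} (hD : ∀ x, (N x).card ≤ D)
    (ha : Function.Injective a) (hb : Function.Injective b) (i : ι) :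
    ((crossEv N a b k).filter fun e => e.1.1 = i).card ≤ k * (D * D) := by
  set J : Finset ι := univ.filter fun j => (cnbr N a b (i, j)).card ≤ k
  calc ((crossEv N a b k).filter fun e => e.1.1 = i).card
      ≤ (J.sigma fun j => cnbr N a b (i, j) ×ˢ cnbr N a b (i, j)).card := by
        refine card_le_card_of_injOn (fun e => ⟨e.1.2, (a e.2.1, b e.2.2)⟩) ?_ ?_
        · intro e he
          simp only [crossEv, forb, mem_coe, mem_filter, mem_univ, true_and, not_or, not_lt] at he
          obtain ⟨⟨⟨-, hk⟩, -, -, -, hx, hy⟩, rfl⟩ := he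
          exact mem_sigma.2 ⟨mem_filter.2 ⟨mem_univ _, hk⟩, mem_product.2 ⟨hx, hy⟩⟩
        · intro e he f hf h
          simp only [Sigma.mk.injEq, heq_eq_eq, Prod.mk.injEq] at h
          exact Prod.ext (Prod.ext ((mem_filter.1 he).2.trans (mem_filter.1 hf).2.symm) h.1)
            (Prod.ext (ha h.2.1) (hb h.2.2))
    _ = ∑ j ∈ J, (cnbr N a b (i, j)).card * (cnbr N a b (i, j)).card := by
        simp only [card_sigma, card_product]
    _ ≤ ∑ j ∈ J, k * (cnbr N a b (i, j)).card :=
        sum_le_sum fun j hj => Nat.mul_le_mul_right _ (mem_filter.1 hj).2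
    _ ≤ k * (D * D) := by
        rw [← mul_sum]
        refine Nat.mul_le_mul_left _ ?_
        calc ∑ j ∈ J, (cnbr N a b (i, j)).card
            ≤ ∑ j, (cnbr N a b (i, j)).card := sum_le_sum_of_subset (subset_univ _)
          _ ≤ ∑ v : V, (N (a i) ∩ N v).card := by
              refine le_trans (le_of_eq ?_) (sum_le_sum_of_subset (subset_univ (univ.image b)))
              rw [sum_image hb.injOn]
              rfl
          _ ≤ D * D := by
              calc ∑ v : V, (N (a i) ∩ N v).card
                  = ∑ v : V, ∑ w ∈ N (a i), if w ∈ N v then 1 else 0 := by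
                    refine sum_congr rfl fun v _ => ?_
                    rw [← card_filter, filter_mem_eq_inter]
                _ = ∑ w ∈ N (a i), ∑ v : V, if w ∈ N v then 1 else 0 := sum_comm
                _ ≤ ∑ _w ∈ N (a i), D := by
                    refine sum_le_sum fun w _ => ?_
                    rw [← card_filter]
                    exact le_trans (card_le_card fun v hv => hsym _ _ (mem_filter.1 hv).2) (hD w)
                _ ≤ D * D := by
                    rw [sum_const, smul_eq_mul]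
                    exact Nat.mul_le_mul_right _ (hD _)

theorem exists_pairing_lll (hsym : ∀ x y, x ∈ N y → y ∈ N x) (hirr : ∀ x, x ∉ N x) {D : ℕ}
    (hD : ∀ x, (N x).card ≤ D) (ha : Function.Injective a) (hb : Function.Injective b)
    (hcard : 10000 * (D + 1) ^ 4 ≤ Fintype.card ι ^ 3) :
    ∃ σ : ι → ι, Function.Injective σ ∧ (∀ i, b (σ i) ∉ N (a i)) ∧
      ∀ i j, ¬ (a j ∈ N (a i) ∩ N (b (σ i)) ∧ b (σ j) ∈ N (a i) ∩ N (b (σ i))) := by
  set n := Fintype.card ι with hn
  have h22 : 22 ≤ n := by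
    by_contra h
    have h1 : n ^ 3 ≤ 21 ^ 3 := Nat.pow_le_pow_left (by omega) 3
    have h2 : 1 ≤ (D + 1) ^ 4 := Nat.one_le_pow _ _ (Nat.succ_pos D)
    omega
  have h40 : 40 * D ≤ n := by
    have h1 : (40 * D) ^ 3 ≤ n ^ 3 := by
      refine le_trans ?_ hcard
      nlinarith [Nat.zero_le (D ^ 4), Nat.zero_le (D ^ 3), Nat.zero_le (D ^ 2),
        sq_nonneg ((5 * D : ℤ) - 6)]
    exact (Nat.pow_le_pow_iff_left (three_ne_zero)).1 h1
  set k := 50 * D ^ 2 / n
  set S := forb N a b k with hSdef
  set X := crossEv N a b k with hXdef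
  set E : Finset (PEv ι) := S.image (fun p => (p, p)) ∪ X with hEdef
  have hmemX : ∀ e ∈ X, e.1 ∉ S ∧ e.2 ∉ S ∧ e.1.1 ≠ e.2.1 ∧ e.1.2 ≠ e.2.2 := by
    intro e he
    simp only [hXdef, crossEv, mem_filter, mem_univ, true_and] at he
    exact ⟨he.1, he.2.1, he.2.2.1, he.2.2.2.1⟩
  have hval : ∀ e ∈ E, PValid e := by
    intro e he
    rcases mem_union.1 he with h | h
    · obtain ⟨p, -, rfl⟩ := mem_image.1 h
      exact Or.inl rfl
    · exact Or.inr (hmemX e h).2.2
  have hn0 : (0 : ℝ) < n := by exact_mod_cast (by omega : 0 < n)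
  have hn1 : (n : ℝ) * ((n : ℝ) - 1) ≥ 0.95 * (n : ℝ) ^ 2 := by
    have : (22 : ℝ) ≤ n := by exact_mod_cast h22
    nlinarith
  have hpwtS : ∀ p : ι × ι, (pwt (p, p) : ℝ)⁻¹ = (n : ℝ)⁻¹ := fun p => by simp [pwt, hn]
  have hpwtX : ∀ e ∈ X, (pwt e : ℝ)⁻¹ = ((n : ℝ) * ((n : ℝ) - 1))⁻¹ := by
    intro e he
    have h : e.1 ≠ e.2 := fun hh => (hmemX e he).2.2.1 (congrArg Prod.fst hh)
    simp only [pwt, if_neg h]
    push_cast [Nat.cast_sub (show 1 ≤ Fintype.card ι by omega)]
    rw [hn]
  -- counting by one coordinate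
  have hi : ∀ i : ι, ((S.filter fun p => p.1 = i).card : ℝ) ≤ D + D ^ 2 / (k + 1) ∧
      ((X.filter fun e => e.1.1 = i ∨ e.2.1 = i).card : ℝ) ≤ 2 * k * D ^ 2 := by
    intro i
    constructor
    · have h := forb_count (a := a) (k := k) hsym hD hb i
      have h' : ((S.filter fun p => p.1 = i).card : ℝ) * (k + 1) ≤ D * (k + 1) + D ^ 2 := by
        rw [pow_two]
        exact_mod_cast h
      rw [show (D : ℝ) + D ^ 2 / (k + 1) = (D * (k + 1) + D ^ 2) / (k + 1) by field_simp]
      rwa [le_div_iff₀ (by positivity)]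
    · have h1 := cross_count (k := k) hsym hD ha hb i
      have h2 : (X.filter fun e => e.2.1 = i).card ≤ k * (D * D) := by
        refine le_trans (card_le_card_of_injOn Prod.swap ?_ ?_) h1
        · intro e he
          obtain ⟨he, hei⟩ := mem_filter.1 he
          exact mem_filter.2 ⟨crossEv_swap hsym he, hei⟩
        · exact Prod.swap_injective.injOn
      have h3 := le_trans (le_of_eq (congrArg card (filter_or (fun e : PEv ι => e.1.1 = i)
        (fun e => e.2.1 = i) X))) (le_trans (card_union_le _ _) (Nat.add_le_add h1 h2))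
      have h4 : ((X.filter fun e => e.1.1 = i ∨ e.2.1 = i).card : ℝ) ≤
          ((k * (D * D) + k * (D * D) : ℕ) : ℝ) := by exact_mod_cast h3
      push_cast at h4
      linarith
  have hj : ∀ j : ι, ((S.filter fun p => p.2 = j).card : ℝ) ≤ D + D ^ 2 / (k + 1) ∧
      ((X.filter fun e => e.1.2 = j ∨ e.2.2 = j).card : ℝ) ≤ 2 * k * D ^ 2 := by
    intro j
    have hc : ∀ p : ι × ι, cnbr N b a p.swap = cnbr N a b p := fun p => inter_comm _ _
    have hf : ∀ p : ι × ι, p.swap ∈ forb N b a k ↔ p ∈ forb N a b k := by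
      intro p
      simp only [forb, mem_filter, mem_univ, true_and, hc, Prod.fst_swap, Prod.snd_swap]
      exact or_congr_left ⟨hsym _ _, hsym _ _⟩
    constructor
    · have h := forb_count (N := N) (a := b) (b := a) (k := k) hsym hD ha j
      have h0 : (S.filter fun p => p.2 = j).card ≤
          ((forb N b a k).filter fun p => p.1 = j).card := by
        refine card_le_card_of_injOn Prod.swap ?_ Prod.swap_injective.injOn
        intro p hp
        obtain ⟨hp, hpj⟩ := mem_filter.1 hp
        exact mem_filter.2 ⟨(hf p).2 hp, hpj⟩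
      have h' : ((S.filter fun p => p.2 = j).card : ℝ) * (k + 1) ≤ D * (k + 1) + D ^ 2 := by
        rw [pow_two]
        exact_mod_cast le_trans (Nat.mul_le_mul_right _ h0) h
      rw [show (D : ℝ) + D ^ 2 / (k + 1) = (D * (k + 1) + D ^ 2) / (k + 1) by field_simp]
      rwa [le_div_iff₀ (by positivity)]
    · have h0 := cross_count (N := N) (a := b) (b := a) (k := k) hsym hD hb ha j
      have hX' : ∀ e ∈ X, ((e.1.swap, e.2.swap) : PEv ι) ∈ crossEv N b a k := by
        intro e he
        simp only [hXdef, crossEv, mem_filter, mem_univ, true_and] at he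
        simp only [crossEv, mem_filter, mem_univ, true_and, hf, hc, Prod.fst_swap, Prod.snd_swap]
        exact ⟨he.1, he.2.1, he.2.2.2.1, he.2.2.1, he.2.2.2.2.2, he.2.2.2.2.1⟩
      have hinj : Function.Injective (fun e : PEv ι => ((e.1.swap, e.2.swap) : PEv ι)) := by
        intro e f h
        simp only [Prod.mk.injEq] at h
        exact Prod.ext (Prod.swap_injective h.1) (Prod.swap_injective h.2)
      have h1 : (X.filter fun e => e.1.2 = j).card ≤ k * (D * D) := by
        refine le_trans (card_le_card_of_injOn _ ?_ hinj.injOn) h0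
        intro e he
        obtain ⟨he, hej⟩ := mem_filter.1 he
        exact mem_filter.2 ⟨hX' e he, hej⟩
      have h2 : (X.filter fun e => e.2.2 = j).card ≤ k * (D * D) := by
        refine le_trans (card_le_card_of_injOn Prod.swap ?_ Prod.swap_injective.injOn) h1
        intro e he
        obtain ⟨he, hej⟩ := mem_filter.1 he
        exact mem_filter.2 ⟨crossEv_swap hsym he, hej⟩
      have h3 := le_trans (le_of_eq (congrArg card (filter_or (fun e : PEv ι => e.1.2 = j)
        (fun e => e.2.2 = j) X))) (le_trans (card_union_le _ _) (Nat.add_le_add h1 h2))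
      have h4 : ((X.filter fun e => e.1.2 = j ∨ e.2.2 = j).card : ℝ) ≤
          ((k * (D * D) + k * (D * D) : ℕ) : ℝ) := by exact_mod_cast h3
      push_cast at h4
      linarith
  set F : ℝ := D + D ^ 2 / (k + 1) with hF
  set G : ℝ := 2 * k * D ^ 2 with hG
  -- the numbers
  have hFn : F / n ≤ 1 / 40 + 1 / 50 := by
    have h1 : (D : ℝ) * 40 ≤ n := by exact_mod_cast (by omega : D * 40 ≤ n)
    have h2 : 50 * (D : ℝ) ^ 2 ≤ n * (k + 1) := by
      exact_mod_cast le_of_lt (Nat.lt_mul_div_succ (50 * D ^ 2) (by omega : 0 < n))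
    have h3 : (D : ℝ) ^ 2 / (k + 1) ≤ n / 50 := by
      rw [div_le_div_iff₀ (by positivity) (by norm_num)]
      linarith
    rw [div_le_iff₀ hn0, hF]
    linarith
  have hGn : G / ((n : ℝ) * ((n : ℝ) - 1)) ≤ 1 / 90 := by
    have h1 : (k : ℝ) * n ≤ 50 * (D : ℝ) ^ 2 := by
      exact_mod_cast Nat.div_mul_le_self (50 * D ^ 2) n
    have h2 : 10000 * (D : ℝ) ^ 4 ≤ (n : ℝ) ^ 3 := by
      exact_mod_cast le_trans (Nat.mul_le_mul_left _ (Nat.pow_le_pow_left (Nat.le_succ D) 4)) hcard
    rw [div_le_iff₀ (by nlinarith), hG]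
    refine le_trans ?_ (mul_le_mul_of_nonneg_left hn1 (by norm_num))
    have h3 := mul_le_mul_of_nonneg_right h1 (sq_nonneg (D : ℝ))
    refine le_of_mul_le_mul_right ?_ hn0
    nlinarith
  -- sums over one coordinate
  have hsum : ∀ (e : PEv ι), e ∈ E → ∑ f ∈ E.filter (Confl e), (pwt f : ℝ)⁻¹ ≤
      4 * (F / n + G / ((n : ℝ) * ((n : ℝ) - 1))) := by
    intro e he
    set P : Finset ι := {e.1.1, e.2.1}
    set Q : Finset ι := {e.1.2, e.2.2}
    have hsub : E.filter (Confl e) ⊆
        ((S.filter fun p => p.1 ∈ P ∨ p.2 ∈ Q).image fun p => (p, p)) ∪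
          X.filter fun f => (f.1.1 ∈ P ∨ f.2.1 ∈ P) ∨ (f.1.2 ∈ Q ∨ f.2.2 ∈ Q) := by
      intro f hf
      obtain ⟨hfE, hc⟩ := mem_filter.1 hf
      simp only [Confl, Touch] at hc
      rcases mem_union.1 hfE with h | h
      · obtain ⟨p, hp, rfl⟩ := mem_image.1 h
        refine mem_union_left _ (mem_image_of_mem _ (mem_filter.2 ⟨hp, ?_⟩))
        simp only [P, Q, mem_insert, mem_singleton]
        tauto
      · refine mem_union_right _ (mem_filter.2 ⟨h, ?_⟩)
        simp only [P, Q, mem_insert, mem_singleton]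
        grind
    refine le_trans (sum_le_sum_of_subset_of_nonneg hsub fun f _ _ => by positivity) ?_
    rw [sum_union, sum_image fun p _ q _ h => (Prod.ext_iff.1 h).1,
      sum_congr rfl (fun p _ => hpwtS p), sum_congr rfl (fun f hf => hpwtX f (mem_filter.1 hf).1),
      sum_const, sum_const, nsmul_eq_mul, nsmul_eq_mul]
    · have hP : P.card ≤ 2 := card_le_two
      have hQ : Q.card ≤ 2 := card_le_two
      have c1 : ((S.filter fun p => p.1 ∈ P ∨ p.2 ∈ Q).card : ℝ) ≤ 4 * F := by
        calc ((S.filter fun p => p.1 ∈ P ∨ p.2 ∈ Q).card : ℝ)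
            ≤ ((P.biUnion fun i => S.filter fun p => p.1 = i) ∪
                Q.biUnion fun j => S.filter fun p => p.2 = j).card := by
              refine Nat.cast_le.2 (card_le_card fun p hp => ?_)
              simp only [mem_union, mem_biUnion, mem_filter] at hp ⊢
              grind
          _ ≤ (∑ i ∈ P, ((S.filter fun p => p.1 = i).card : ℝ)) +
                ∑ j ∈ Q, ((S.filter fun p => p.2 = j).card : ℝ) := by
              exact_mod_cast le_trans (card_union_le _ _) (Nat.add_le_add card_biUnion_le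
                card_biUnion_le)
          _ ≤ P.card • F + Q.card • F :=
              add_le_add (sum_le_card_nsmul _ _ _ fun i _ => (hi i).1)
                (sum_le_card_nsmul _ _ _ fun j _ => (hj j).1)
          _ ≤ 4 * F := by
              have hF0 : 0 ≤ F := by positivity
              rw [nsmul_eq_mul, nsmul_eq_mul]
              have : (P.card : ℝ) + Q.card ≤ 4 := by exact_mod_cast Nat.add_le_add hP hQ
              nlinarith
      have c2 : ((X.filter fun f => (f.1.1 ∈ P ∨ f.2.1 ∈ P) ∨ (f.1.2 ∈ Q ∨ f.2.2 ∈ Q)).card : ℝ)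
          ≤ 4 * G := by
        calc ((X.filter fun f => (f.1.1 ∈ P ∨ f.2.1 ∈ P) ∨ (f.1.2 ∈ Q ∨ f.2.2 ∈ Q)).card : ℝ)
            ≤ ((P.biUnion fun i => X.filter fun f => f.1.1 = i ∨ f.2.1 = i) ∪
                Q.biUnion fun j => X.filter fun f => f.1.2 = j ∨ f.2.2 = j).card := by
              refine Nat.cast_le.2 (card_le_card fun f hf => ?_)
              simp only [mem_union, mem_biUnion, mem_filter] at hf ⊢
              grind
          _ ≤ (∑ i ∈ P, ((X.filter fun f => f.1.1 = i ∨ f.2.1 = i).card : ℝ)) +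
                ∑ j ∈ Q, ((X.filter fun f => f.1.2 = j ∨ f.2.2 = j).card : ℝ) := by
              exact_mod_cast le_trans (card_union_le _ _) (Nat.add_le_add card_biUnion_le
                card_biUnion_le)
          _ ≤ P.card • G + Q.card • G :=
              add_le_add (sum_le_card_nsmul _ _ _ fun i _ => (hi i).2)
                (sum_le_card_nsmul _ _ _ fun j _ => (hj j).2)
          _ ≤ 4 * G := by
              have hG0 : 0 ≤ G := by positivity
              rw [nsmul_eq_mul, nsmul_eq_mul]
              have : (P.card : ℝ) + Q.card ≤ 4 := by exact_mod_cast Nat.add_le_add hP hQ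
              nlinarith
      have hnn : (0 : ℝ) < (n : ℝ) * ((n : ℝ) - 1) := by nlinarith
      rw [← div_eq_mul_inv, ← div_eq_mul_inv, mul_add, ← mul_div_assoc, ← mul_div_assoc]
      gcongr
    · rw [disjoint_left]
      intro f hf hf'
      obtain ⟨p, -, rfl⟩ := mem_image.1 hf
      exact (hmemX _ (mem_filter.1 hf').1).2.2.1 rfl
  obtain ⟨σ, hσ⟩ := exists_perm_avoid E hval fun e he => le_trans (hsum e he) (by linarith)
  have hS : ∀ i, (i, σ i) ∉ S := fun i h =>
    hσ ((i, σ i), (i, σ i)) (mem_union_left _ (mem_image.2 ⟨_, h, rfl⟩)) ⟨rfl, rfl⟩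
  refine ⟨σ, σ.injective, fun i h => hS i ?_, fun i j h => ?_⟩
  · simp only [hSdef, forb, mem_filter, mem_univ, true_and]
    exact Or.inl h
  · by_cases hij : i = j
    · subst hij
      exact hirr _ (mem_inter.1 h.1).1
    refine hσ ((i, σ i), (j, σ j)) (mem_union_right _ ?_) ⟨rfl, rfl⟩
    simp only [hXdef, crossEv, mem_filter, mem_univ, true_and]
    exact ⟨hS i, hS j, hij, fun hh => hij (σ.injective hh), h.1, h.2⟩

end Vale.Agent.P060
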