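import Mathlib

/-!
A switching lemma: in a graph given by symmetric neighbourhoods of size at most `D`, two equally indexed
families `a`, `b` can be matched into pairs so that no pair is adjacent and no pair lies inside the common
neighbourhood of another pair, as soon as the index set has more than `7 D + 6 D s` elements
(`D ≤ s * (s + 2)`).
-/

namespace Vale.Agent.P060

open Finset

variable {V ι : Type*} [Fintype V] [DecidableEq V] [Fintype ι] [DecidableEq ι]
variable (N : V → Finset V) (a b : ι → V)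

/-- Common neighbourhood of the pair `(a p.1, b p.2)`. -/
def cnbr (p : ι × ι) : Finset V := N (a p.1) ∩ N (b p.2)

/-- Vertices that may not be paired with `x`. -/
def badv (k : ℕ) (M : Finset (ι × ι)) (x : V) : Finset V :=
  N x ∪ univ.filter (fun v => k < (N x ∩ N v).card) ∪
    (M.filter (fun p => x ∈ cnbr N a b p)).biUnion (cnbr N a b)

/-- The state of the switching process. -/
structure Good (k : ℕ) (M : Finset (ι × ι)) : Prop where
  injFst : Set.InjOn Prod.fst (M : Set (ι × ι))
  injSnd : Set.InjOn Prod.snd (M : Set (ι × ι))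
  far : ∀ p ∈ M, b p.2 ∉ N (a p.1)
  codeg : ∀ p ∈ M, (cnbr N a b p).card ≤ k
  cross : ∀ p ∈ M, ∀ q ∈ M, ¬ (a q.1 ∈ cnbr N a b p ∧ b q.2 ∈ cnbr N a b p)

set_option linter.unusedSectionVars false

variable {N} {a b}

theorem badv_high_card (hsym : ∀ x y, x ∈ N y → y ∈ N x) {D : ℕ} (hD : ∀ x, (N x).card ≤ D)
    (k : ℕ) (x : V) :
    (univ.filter (fun v => k < (N x ∩ N v).card)).card * (k + 1) ≤ D * D := by
  calc (univ.filter (fun v => k < (N x ∩ N v).card)).card * (k + 1)
      ≤ ∑ v ∈ univ.filter (fun v => k < (N x ∩ N v).card), (N x ∩ N v).card := by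
        rw [← smul_eq_mul, ← sum_const]
        exact sum_le_sum fun v hv => (mem_filter.1 hv).2
    _ ≤ ∑ v : V, (N x ∩ N v).card := sum_le_sum_of_subset (subset_univ _)
    _ = ∑ v : V, ∑ w ∈ N x, if w ∈ N v then 1 else 0 := by
        refine sum_congr rfl fun v _ => ?_
        rw [← card_filter, filter_mem_eq_inter]
    _ = ∑ w ∈ N x, ∑ v : V, if w ∈ N v then 1 else 0 := sum_comm
    _ ≤ ∑ _w ∈ N x, D := by
        refine sum_le_sum fun w _ => ?_
        rw [← card_filter]
        refine le_trans (card_le_card ?_) (hD w)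
        intro v hv
        exact hsym _ _ (mem_filter.1 hv).2
    _ ≤ D * D := by
        rw [sum_const, smul_eq_mul]
        exact Nat.mul_le_mul_right _ (hD x)

theorem badv_card (hsym : ∀ x y, x ∈ N y → y ∈ N x) {D s : ℕ} (hD : ∀ x, (N x).card ≤ D)
    (hs : D ≤ s * (s + 2)) (ha : Function.Injective a) {M : Finset (ι × ι)} (hM : Good N a b s M)
    (x : V) : (badv N a b s M x).card ≤ D + D * (s + 1) + D * s := by
  refine le_trans (card_union_le _ _) (Nat.add_le_add (le_trans (card_union_le _ _)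
    (Nat.add_le_add (hD x) ?_)) ?_)
  · refine Nat.le_of_mul_le_mul_right (le_trans (badv_high_card hsym hD s x) ?_) (Nat.succ_pos s)
    calc D * D ≤ D * ((s + 1) * (s + 1)) := Nat.mul_le_mul_left _ (by nlinarith)
      _ = D * (s + 1) * (s + 1) := (mul_assoc _ _ _).symm
  · refine le_trans card_biUnion_le (le_trans (sum_le_sum (g := fun _ => s)
      fun p hp => hM.codeg p (mem_filter.1 hp).1) ?_)
    rw [sum_const, smul_eq_mul]
    refine Nat.mul_le_mul_right _ (le_trans ?_ (hD x))
    refine card_le_card_of_injOn (fun p => a p.1) ?_ ?_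
    · intro p hp
      have h := (mem_filter.1 hp).2
      exact hsym _ _ (mem_inter.1 h).1
    · intro p hp q hq h
      exact hM.injFst (mem_filter.1 hp).1 (mem_filter.1 hq).1 (ha h)

theorem good_new (hsym : ∀ x y, x ∈ N y → y ∈ N x) {k : ℕ} {M : Finset (ι × ι)} (r : ι × ι)
    (h : b r.2 ∉ badv N a b k M (a r.1)) :
    b r.2 ∉ N (a r.1) ∧ (cnbr N a b r).card ≤ k ∧
      ∀ p ∈ M, ¬ (a r.1 ∈ cnbr N a b p ∧ b r.2 ∈ cnbr N a b p) ∧
        ¬ (a p.1 ∈ cnbr N a b r ∧ b p.2 ∈ cnbr N a b r) := by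
  simp only [badv, mem_union, not_or, mem_filter, mem_univ, true_and, not_lt, mem_biUnion,
    not_exists, not_and] at h
  obtain ⟨⟨h1, h2⟩, h3⟩ := h
  refine ⟨h1, h2, fun p hp => ?_⟩
  have h4 : ¬ (a r.1 ∈ cnbr N a b p ∧ b r.2 ∈ cnbr N a b p) := fun h => h3 p ⟨hp, h.1⟩ h.2
  refine ⟨h4, fun h => h4 ?_⟩
  simp only [cnbr, mem_inter] at h ⊢
  exact ⟨⟨hsym _ _ h.1.1, hsym _ _ h.2.1⟩, ⟨hsym _ _ h.1.2, hsym _ _ h.2.2⟩⟩

theorem good_new_swap (hsym : ∀ x y, x ∈ N y → y ∈ N x) {k : ℕ} {M : Finset (ι × ι)} (r : ι × ι)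
    (h : a r.1 ∉ badv N a b k M (b r.2)) : b r.2 ∉ badv N a b k M (a r.1) := by
  simp only [badv, mem_union, not_or, mem_filter, mem_univ, true_and, not_lt, mem_biUnion,
    not_exists, not_and] at h ⊢
  obtain ⟨⟨h1, h2⟩, h3⟩ := h
  exact ⟨⟨fun h => h1 (hsym _ _ h), by rwa [inter_comm]⟩, fun p hp hb => h3 p ⟨hp.1, hb⟩ hp.2⟩

theorem exists_good (hsym : ∀ x y, x ∈ N y → y ∈ N x) (hirr : ∀ x, x ∉ N x) {D s : ℕ}
    (hD : ∀ x, (N x).card ≤ D) (hs : D ≤ s * (s + 2)) (ha : Function.Injective a)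
    (hb : Function.Injective b) (hcard : 7 * D + 6 * (D * s) < Fintype.card ι) :
    ∀ n ≤ Fintype.card ι, ∃ M : Finset (ι × ι), Good N a b s M ∧ M.card = n := by
  intro n
  induction n with
  | zero => exact fun _ => ⟨∅, ⟨by simp, by simp, by simp, by simp, by simp⟩, rfl⟩
  | succ n ih =>
    intro hn
    obtain ⟨M, hM, rfl⟩ := ih (Nat.le_of_succ_le hn)
    have hi : ∃ i, i ∉ M.image Prod.fst := by
      by_contra h
      push Not at h
      have := card_le_card (fun i (_ : i ∈ (univ : Finset ι)) => h i)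
      have := card_image_le (s := M) (f := Prod.fst)
      simp only [card_univ] at *
      omega
    obtain ⟨i0, hi0⟩ := hi
    by_cases hj : ∃ j, j ∉ M.image Prod.snd ∧ b j ∉ badv N a b s M (a i0)
    · obtain ⟨j, hj1, hj2⟩ := hj
      obtain ⟨g1, g2, g3⟩ := good_new hsym (i0, j) hj2
      have hne : (i0, j) ∉ M := fun h => hi0 (mem_image.2 ⟨_, h, rfl⟩)
      refine ⟨insert (i0, j) M, ⟨?_, ?_, ?_, ?_, ?_⟩, card_insert_of_notMem hne⟩
      · rw [coe_insert, Set.injOn_insert (fun h => hne (mem_coe.1 h))]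
        refine ⟨hM.injFst, ?_⟩
        rintro ⟨p, hp, he⟩
        exact hi0 (mem_image.2 ⟨p, hp, he⟩)
      · rw [coe_insert, Set.injOn_insert (fun h => hne (mem_coe.1 h))]
        refine ⟨hM.injSnd, ?_⟩
        rintro ⟨p, hp, he⟩
        exact hj1 (mem_image.2 ⟨p, hp, he⟩)
      · exact forall_mem_insert _ _ _ |>.2 ⟨g1, hM.far⟩
      · exact forall_mem_insert _ _ _ |>.2 ⟨g2, hM.codeg⟩
      · intro p hp q hq
        rcases mem_insert.1 hp with rfl | hp <;> rcases mem_insert.1 hq with rfl | hq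
        · exact fun h => hirr _ (mem_inter.1 h.1).1
        · exact (g3 q hq).2
        · exact (g3 p hp).1
        · exact hM.cross p hp q hq
    push Not at hj
    set B := D + D * (s + 1) + D * s with hB
    have hfree : Fintype.card ι ≤ M.card + B := by
      have h1 : (univ \ M.image Prod.snd).card ≤ B := by
        refine le_trans ?_ (badv_card hsym hD hs ha hM (a i0))
        refine card_le_card_of_injOn b (fun j hj' => hj j ?_) hb.injOn
        simpa using hj'
      have h2 := card_sdiff_add_card_eq_card (subset_univ (M.image Prod.snd))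
      rw [card_univ] at h2
      have := card_image_le (s := M) (f := Prod.snd)
      omega
    have hj0 : ∃ j, j ∉ M.image Prod.snd := by
      by_contra h
      push Not at h
      have := card_le_card (fun i (_ : i ∈ (univ : Finset ι)) => h i)
      have := card_image_le (s := M) (f := Prod.snd)
      simp only [card_univ] at *
      omega
    obtain ⟨j0, hj0⟩ := hj0
    have hp : ∃ p ∈ M, b p.2 ∉ badv N a b s M (a i0) ∧
        a p.1 ∉ badv N a b s M (b j0) ∪ N (a i0) := by
      by_contra h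
      push Not at h
      have hsub : M ⊆ M.filter (fun p => b p.2 ∈ badv N a b s M (a i0)) ∪
          M.filter (fun p => a p.1 ∈ badv N a b s M (b j0) ∪ N (a i0)) := by
        intro p hp
        rw [mem_union, mem_filter, mem_filter]
        by_cases hb' : b p.2 ∈ badv N a b s M (a i0)
        · exact Or.inl ⟨hp, hb'⟩
        · exact Or.inr ⟨hp, h p hp hb'⟩
      have h1 : (M.filter (fun p => b p.2 ∈ badv N a b s M (a i0))).card ≤ B := by
        refine le_trans ?_ (badv_card hsym hD hs ha hM (a i0))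
        exact card_le_card_of_injOn (fun p => b p.2) (fun p hp => (mem_filter.1 hp).2)
          fun p hp q hq he => hM.injSnd (mem_filter.1 hp).1 (mem_filter.1 hq).1 (hb he)
      have h2 : (M.filter (fun p => a p.1 ∈ badv N a b s M (b j0) ∪ N (a i0))).card ≤ B + D := by
        refine le_trans ?_ (le_trans (card_union_le _ _)
          (Nat.add_le_add (badv_card hsym hD hs ha hM (b j0)) (hD (a i0))))
        exact card_le_card_of_injOn (fun p => a p.1) (fun p hp => (mem_filter.1 hp).2)
          fun p hp q hq he => hM.injFst (mem_filter.1 hp).1 (mem_filter.1 hq).1 (ha he)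
      have := le_trans (card_le_card hsub) (card_union_le _ _)
      simp only [hB, mul_add, mul_one] at *
      omega
    obtain ⟨p, hpM, hp1, hp2⟩ := hp
    rw [mem_union, not_or] at hp2
    obtain ⟨f1, f2, f3⟩ := good_new hsym (i0, p.2) hp1
    obtain ⟨g1, g2, g3⟩ := good_new hsym (p.1, j0) (good_new_swap hsym (p.1, j0) hp2.1)
    have hpi : p.1 ≠ i0 := fun h => hi0 (mem_image.2 ⟨p, hpM, h⟩)
    have hne1 : (i0, p.2) ∉ insert (p.1, j0) (M.erase p) := by
      rw [mem_insert, Prod.mk.injEq, not_or]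
      exact ⟨fun h => hpi h.1.symm, fun h => hi0 (mem_image.2 ⟨_, mem_of_mem_erase h, rfl⟩)⟩
    have hne2 : (p.1, j0) ∉ M.erase p := fun h => hj0 (mem_image.2 ⟨_, mem_of_mem_erase h, rfl⟩)
    refine ⟨insert (i0, p.2) (insert (p.1, j0) (M.erase p)), ⟨?_, ?_, ?_, ?_, ?_⟩, ?_⟩
    · rw [coe_insert, Set.injOn_insert (fun h => hne1 (mem_coe.1 h)), coe_insert,
        Set.injOn_insert (fun h => hne2 (mem_coe.1 h))]
      refine ⟨⟨hM.injFst.mono (by simp), ?_⟩, ?_⟩
      · rintro ⟨q, hq, he⟩
        have hq' : q ∈ M.erase p := hq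
        exact ne_of_mem_erase hq' (hM.injFst (mem_of_mem_erase hq') hpM he)
      · rintro ⟨q, hq, he⟩
        rcases Set.mem_insert_iff.1 hq with rfl | hq
        · exact hpi he
        · exact hi0 (mem_image.2 ⟨q, mem_of_mem_erase hq, he⟩)
    · rw [coe_insert, Set.injOn_insert (fun h => hne1 (mem_coe.1 h)), coe_insert,
        Set.injOn_insert (fun h => hne2 (mem_coe.1 h))]
      refine ⟨⟨hM.injSnd.mono (by simp), ?_⟩, ?_⟩
      · rintro ⟨q, hq, he⟩
        exact hj0 (mem_image.2 ⟨q, mem_of_mem_erase hq, he⟩)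
      · rintro ⟨q, hq, he⟩
        rcases Set.mem_insert_iff.1 hq with rfl | hq
        · exact hj0 (mem_image.2 ⟨p, hpM, he.symm⟩)
        · have hq' : q ∈ M.erase p := hq
          exact ne_of_mem_erase hq' (hM.injSnd (mem_of_mem_erase hq') hpM he)
    · exact forall_mem_insert _ _ _ |>.2 ⟨f1, forall_mem_insert _ _ _ |>.2
        ⟨g1, fun q hq => hM.far q (mem_of_mem_erase hq)⟩⟩
    · exact forall_mem_insert _ _ _ |>.2 ⟨f2, forall_mem_insert _ _ _ |>.2
        ⟨g2, fun q hq => hM.codeg q (mem_of_mem_erase hq)⟩⟩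
    · intro u hu v hv
      simp only [mem_insert] at hu hv
      rcases hu with rfl | rfl | hu <;> rcases hv with rfl | rfl | hv
      · exact fun h => hirr _ (mem_inter.1 h.1).1
      · exact fun h => hp2.2 (mem_inter.1 h.1).1
      · exact (f3 v (mem_of_mem_erase hv)).2
      · exact fun h => hp2.2 (hsym _ _ (mem_inter.1 h.1).1)
      · exact fun h => hirr _ (mem_inter.1 h.1).1
      · exact (g3 v (mem_of_mem_erase hv)).2
      · exact (f3 u (mem_of_mem_erase hu)).1
      · exact (g3 u (mem_of_mem_erase hu)).1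
      · exact hM.cross u (mem_of_mem_erase hu) v (mem_of_mem_erase hv)
    · rw [card_insert_of_notMem hne1, card_insert_of_notMem hne2, card_erase_of_mem hpM]
      have := card_pos.2 ⟨p, hpM⟩
      omega

/-- Full pairing by switching. -/
theorem exists_pairing (hsym : ∀ x y, x ∈ N y → y ∈ N x) (hirr : ∀ x, x ∉ N x) {D s : ℕ}
    (hD : ∀ x, (N x).card ≤ D) (hs : D ≤ s * (s + 2)) (ha : Function.Injective a)
    (hb : Function.Injective b) (hcard : 7 * D + 6 * (D * s) < Fintype.card ι) :
    ∃ σ : ι → ι, Function.Injective σ ∧ (∀ i, b (σ i) ∉ N (a i)) ∧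
      ∀ i j, ¬ (a j ∈ N (a i) ∩ N (b (σ i)) ∧ b (σ j) ∈ N (a i) ∩ N (b (σ i))) := by
  obtain ⟨M, hM, hc⟩ := exists_good hsym hirr hD hs ha hb hcard _ le_rfl
  have himg : M.image Prod.fst = univ := by
    apply eq_univ_of_card
    rw [card_image_of_injOn hM.injFst, hc]
  have hex : ∀ i, ∃ p ∈ M, p.1 = i := fun i => mem_image.1 (himg ▸ mem_univ i)
  choose g hg hg1 using hex
  refine ⟨fun i => (g i).2, fun i j h => ?_, fun i => ?_, fun i j => ?_⟩
  · have := hM.injSnd (hg i) (hg j) h
    rw [← hg1 i, this, hg1 j]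
  · simpa only [hg1] using hM.far _ (hg i)
  · simpa only [cnbr, hg1] using hM.cross _ (hg i) _ (hg j)

end Vale.Agent.P060
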